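import Mathlib

/-!
Finitely supported signed measures on binary words, as a monoid algebra under concatenation.
-/

open scoped BigOperators

noncomputable section

namespace Vale.Agent.P321

/-- Binary words under concatenation. -/
abbrev W := FreeMonoid Bool

/-- Finitely supported signed measures on words. -/
abbrev A := MonoidAlgebra ℝ W

/-- Pairing with a test function. -/
def ev (φ : W → ℝ) : A →ₗ[ℝ] ℝ where
  toFun X := X.coeff.sum fun z c => c * φ z
  map_add' X Y := by
    rw [MonoidAlgebra.coeff_add]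
    exact Finsupp.sum_add_index' (fun z => by simp) (fun z a b => by ring)
  map_smul' r X := by
    rw [MonoidAlgebra.coeff_smul, Finsupp.sum_smul_index (fun z => by simp), RingHom.id_apply,
      smul_eq_mul, Finsupp.mul_sum]
    exact Finsupp.sum_congr fun z _ => by ring

theorem ev_apply (φ : W → ℝ) (X : A) : ev φ X = ∑ z ∈ X.coeff.support, X.coeff z * φ z := rfl

theorem ev_apply_of_subset (φ : W → ℝ) (X : A) (S : Finset W) (h : X.coeff.support ⊆ S) :
    ev φ X = ∑ z ∈ S, X.coeff z * φ z := by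
  rw [ev_apply]
  refine Finset.sum_subset h fun z _ hz => ?_
  simp [Finsupp.notMem_support_iff.1 hz]

@[simp] theorem ev_single (φ : W → ℝ) (m : W) (r : ℝ) :
    ev φ (MonoidAlgebra.single m r) = r * φ m := by
  simp [ev, Finsupp.sum_single_index]

theorem ev_mul (φ : W → ℝ) (X Y : A) :
    ev φ (X * Y) = ev (fun u => ev (fun v => φ (u * v)) Y) X := by
  induction X using MonoidAlgebra.induction_linear with
  | zero => simp
  | add X₁ X₂ h₁ h₂ => simp [add_mul, h₁, h₂]
  | single m r =>
    induction Y using MonoidAlgebra.induction_linear with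
    | zero => simp
    | add Y₁ Y₂ h₁ h₂ =>
      rw [mul_add, map_add, h₁, h₂, ev_single, ev_single, ev_single, map_add]
      ring
    | single k s =>
      rw [MonoidAlgebra.single_mul_single, ev_single, ev_single, ev_single]
      ring

theorem ev_one (φ : W → ℝ) : ev φ (1 : A) = φ 1 := by simp [MonoidAlgebra.one_def]

theorem ev_congr_add (φ ψ : W → ℝ) (X : A) : ev (fun z => φ z + ψ z) X = ev φ X + ev ψ X := by
  simp [ev_apply, mul_add, Finset.sum_add_distrib]

theorem ev_smul_test (r : ℝ) (φ : W → ℝ) (X : A) : ev (fun z => r * φ z) X = r * ev φ X := by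
  simp only [ev_apply, Finset.mul_sum]
  exact Finset.sum_congr rfl fun z _ => by ring

/-- Coefficientwise nonnegativity. -/
def Pos (X : A) : Prop := ∀ z, 0 ≤ X.coeff z

theorem Pos.zero : Pos (0 : A) := fun _ => by simp

theorem Pos.single {m : W} {r : ℝ} (hr : 0 ≤ r) : Pos (MonoidAlgebra.single m r) := by
  intro z
  classical
  rw [MonoidAlgebra.coeff_single, Finsupp.single_apply]
  split <;> simp [hr]

theorem Pos.one : Pos (1 : A) := Pos.single zero_le_one

theorem Pos.add {X Y : A} (hX : Pos X) (hY : Pos Y) : Pos (X + Y) := fun z => by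
  simpa using add_nonneg (hX z) (hY z)

theorem Pos.smul {X : A} {r : ℝ} (hr : 0 ≤ r) (hX : Pos X) : Pos (r • X) := fun z => by
  simpa using mul_nonneg hr (hX z)

theorem Pos.mul {X Y : A} (hX : Pos X) (hY : Pos Y) : Pos (X * Y) := fun z => by
  classical
  rw [MonoidAlgebra.coeff_mul]
  refine Finsupp.sum_nonneg fun a _ => ?_
  refine Finsupp.sum_nonneg fun b _ => ?_
  split
  · exact mul_nonneg (hX a) (hY b)
  · exact le_rfl

theorem Pos.pow {X : A} (hX : Pos X) : ∀ n : ℕ, Pos (X ^ n)
  | 0 => by simpa using Pos.one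
  | n + 1 => by rw [pow_succ]; exact (Pos.pow hX n).mul hX

theorem ev_mono {X : A} (hX : Pos X) {φ ψ : W → ℝ} (h : ∀ z, φ z ≤ ψ z) : ev φ X ≤ ev ψ X := by
  simp only [ev_apply]
  exact Finset.sum_le_sum fun z _ => mul_le_mul_of_nonneg_left (h z) (hX z)

theorem ev_nonneg {X : A} (hX : Pos X) {φ : W → ℝ} (h : ∀ z, 0 ≤ φ z) : 0 ≤ ev φ X := by
  simp only [ev_apply]
  exact Finset.sum_nonneg fun z _ => mul_nonneg (hX z) (h z)

/-- Total mass. -/
def mass : A →ₗ[ℝ] ℝ := ev fun _ => 1

theorem mass_single (m : W) (r : ℝ) : mass (MonoidAlgebra.single m r) = r := by simp [mass]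

theorem mass_one : mass (1 : A) = 1 := by simp [mass, ev_one]

theorem mass_mul (X Y : A) : mass (X * Y) = mass X * mass Y := by
  unfold mass
  rw [ev_mul, mul_comm, ← ev_smul_test]
  simp

theorem mass_pow (X : A) (n : ℕ) : mass (X ^ n) = mass X ^ n := by
  induction n with
  | zero => simp [mass_one]
  | succ n ih => rw [pow_succ, mass_mul, ih, pow_succ]

theorem ev_const (r : ℝ) (X : A) : ev (fun _ => r) X = r * mass X := by
  unfold mass
  rw [← ev_smul_test]
  simp

theorem jensen {X : A} (hX : Pos X) (h1 : mass X = 1) (φ : W → ℝ) :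
    (ev φ X) ^ 2 ≤ ev (fun z => φ z ^ 2) X := by
  have h := ev_mono hX (φ := fun z => 2 * ev φ X * φ z) (ψ := fun z => φ z ^ 2 + (ev φ X) ^ 2)
    fun z => by nlinarith [sq_nonneg (φ z - ev φ X)]
  rw [ev_smul_test, ev_congr_add, ev_const, h1] at h
  linarith

/-- The `ℓ¹` norm (total variation norm) of a signed measure. -/
def l1 (X : A) : ℝ := ∑ z ∈ X.coeff.support, |X.coeff z|

theorem l1_nonneg (X : A) : 0 ≤ l1 X := Finset.sum_nonneg fun _ _ => abs_nonneg _

theorem abs_ev_le {X : A} {φ : W → ℝ} {M : ℝ} (h : ∀ z, |φ z| ≤ M) : |ev φ X| ≤ M * l1 X := by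
  rw [ev_apply, l1, Finset.mul_sum]
  refine (Finset.abs_sum_le_sum_abs _ _).trans (Finset.sum_le_sum fun z _ => ?_)
  rw [abs_mul, mul_comm M]
  exact mul_le_mul_of_nonneg_left (h z) (abs_nonneg _)

/-- The sign of a coefficient of `X`. -/
def sgn (X : A) (z : W) : ℝ := if 0 ≤ X.coeff z then 1 else -1

theorem abs_sgn (X : A) (z : W) : |sgn X z| = 1 := by unfold sgn; split <;> simp

theorem ev_sgn (X : A) : ev (sgn X) X = l1 X := by
  rw [ev_apply, l1]
  refine Finset.sum_congr rfl fun z _ => ?_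
  unfold sgn
  split
  next h => rw [abs_of_nonneg h, mul_one]
  next h => rw [abs_of_neg (not_le.1 h)]; ring

theorem l1_le_of_forall {X : A} {B : ℝ} (h : ∀ φ : W → ℝ, (∀ z, |φ z| ≤ 1) → ev φ X ≤ B) :
    l1 X ≤ B := ev_sgn X ▸ h _ fun z => (abs_sgn X z).le

theorem l1_add (X Y : A) : l1 (X + Y) ≤ l1 X + l1 Y := by
  refine l1_le_of_forall fun φ h => ?_
  rw [map_add]
  have hX := (le_abs_self _).trans (abs_ev_le (X := X) h)
  have hY := (le_abs_self _).trans (abs_ev_le (X := Y) h)
  linarith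

theorem l1_smul (r : ℝ) (X : A) : l1 (r • X) ≤ |r| * l1 X := by
  refine l1_le_of_forall fun φ h => ?_
  rw [map_smul, smul_eq_mul]
  refine (le_abs_self _).trans ?_
  rw [abs_mul]
  exact mul_le_mul_of_nonneg_left (by simpa using abs_ev_le (X := X) h) (abs_nonneg _)

theorem l1_zero : l1 (0 : A) = 0 := by simp [l1]

theorem l1_neg (X : A) : l1 (-X) = l1 X := by
  have h : ∀ Y : A, l1 (-Y) ≤ l1 Y := fun Y => by simpa using l1_smul (-1) Y
  exact le_antisymm (h X) (by simpa using h (-X))

theorem l1_sub (X Y : A) : l1 (X - Y) ≤ l1 X + l1 Y := by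
  rw [sub_eq_add_neg]; exact (l1_add _ _).trans (by rw [l1_neg])

theorem l1_sum {ι : Type*} (s : Finset ι) (f : ι → A) : l1 (∑ i ∈ s, f i) ≤ ∑ i ∈ s, l1 (f i) :=
  Finset.le_sum_of_subadditive l1 l1_zero.le l1_add s f

theorem l1_mul (X Y : A) : l1 (X * Y) ≤ l1 X * l1 Y := by
  refine l1_le_of_forall fun φ h => ?_
  rw [ev_mul, mul_comm (l1 X)]
  refine (le_abs_self _).trans (abs_ev_le fun u => ?_)
  simpa using abs_ev_le (X := Y) fun v => h (u * v)

theorem l1_eq_mass {X : A} (hX : Pos X) : l1 X = mass X := by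
  unfold mass
  rw [ev_apply, l1]
  exact Finset.sum_congr rfl fun z _ => by rw [abs_of_nonneg (hX z), mul_one]

end Vale.Agent.P321
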