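import Mathlib

/-!
The binomial weights, by Pascal's recursion, and the few moment identities that are needed.
-/

open scoped BigOperators
open Finset

noncomputable section

namespace Vale.Agent.P321

/-- The binomial probability of `i` successes in `n` trials with success probability `w`. -/
def bp (w : ℝ) : ℕ → ℕ → ℝ
  | 0, 0 => 1
  | 0, _ + 1 => 0
  | n + 1, 0 => (1 - w) * bp w n 0
  | n + 1, i + 1 => (1 - w) * bp w n (i + 1) + w * bp w n i

variable (w : ℝ)

theorem bp_nonneg (h0 : 0 ≤ w) (h1 : w ≤ 1) : ∀ n i, 0 ≤ bp w n i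
  | 0, 0 => by simp [bp]
  | 0, _ + 1 => by simp [bp]
  | n + 1, 0 => by
    simp only [bp]; exact mul_nonneg (by linarith) (bp_nonneg h0 h1 n 0)
  | n + 1, i + 1 => by
    simp only [bp]
    exact add_nonneg (mul_nonneg (by linarith) (bp_nonneg h0 h1 n _))
      (mul_nonneg h0 (bp_nonneg h0 h1 n _))

theorem bp_eq_zero : ∀ n i, n < i → bp w n i = 0
  | 0, 0, h => absurd h (lt_irrefl 0)
  | 0, _ + 1, _ => by simp [bp]
  | n + 1, 0, h => absurd h (by omega)
  | n + 1, i + 1, h => by
    simp [bp, bp_eq_zero n (i + 1) (by omega), bp_eq_zero n i (by omega)]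

/-- `bp` shifted by one. -/
def bs (n : ℕ) : ℕ → ℝ
  | 0 => 0
  | i + 1 => bp w n i

theorem bp_succ (n : ℕ) : ∀ i, bp w (n + 1) i = (1 - w) * bp w n i + w * bs w n i
  | 0 => by simp [bp, bs]
  | i + 1 => by simp [bp, bs]

theorem bp_ratio : ∀ n i : ℕ,
    (1 - w) * (i + 1) * bp w n (i + 1) = w * ((n : ℝ) - i) * bp w n i
  | 0, 0 => by simp [bp]
  | 0, i + 1 => by simp [bp]
  | n + 1, 0 => by
    have h := bp_ratio n 0
    simp only [bp] at *
    push_cast at *
    linear_combination (1 - w) * h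
  | n + 1, i + 1 => by
    have h := bp_ratio n (i + 1)
    have h' := bp_ratio n i
    simp only [bp] at *
    push_cast at *
    linear_combination (1 - w) * h + w * h'

theorem bp_succ_mul_sub (n : ℕ) : ∀ i : ℕ,
    bp w (n + 1) i * ((n : ℝ) + 1 - i) = ((n : ℝ) + 1) * (1 - w) * bp w n i
  | 0 => by simp [bp]; ring
  | i + 1 => by
    simp only [bp]; push_cast
    linear_combination (-1 : ℝ) * bp_ratio w n i

theorem bp_succ_mul (n : ℕ) : ∀ i : ℕ,
    bp w (n + 1) i * i = ((n : ℝ) + 1) * w * bs w n i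
  | 0 => by simp [bs]
  | i + 1 => by
    simp only [bp, bs]; push_cast
    linear_combination bp_ratio w n i

theorem bp_mul_succ (n i : ℕ) :
    bp w n (i + 1) * ((i : ℝ) + 1) = (n : ℝ) * w * bp w (n - 1) i := by
  cases n with
  | zero => simp [bp]
  | succ n => simpa [bs] using bp_succ_mul w n (i + 1)

/-- Vandermonde's identity. -/
theorem bp_conv (A : ℕ) : ∀ B L : ℕ,
    ∑ i ∈ range (L + 1), bp w A i * bp w B (L - i) = bp w (A + B) L
  | 0, L => by
    rw [sum_eq_single L]
    · simp [bp]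
    · intro i hi hne
      obtain ⟨k, hk⟩ : ∃ k, L - i = k + 1 := ⟨L - i - 1, by simp at hi; omega⟩
      simp [hk, bp]
    · simp
  | B + 1, 0 => by
    have h := bp_conv A B 0
    simp only [range_one, sum_singleton, zero_add] at h ⊢
    rw [← Nat.add_assoc, bp, bp, ← h]; ring
  | B + 1, L + 1 => by
    have h1 := bp_conv A B (L + 1)
    have h2 := bp_conv A B L
    rw [← Nat.add_assoc, bp, ← h1, ← h2, sum_range_succ, sum_range_succ (n := L + 1), mul_add,
      mul_sum, mul_sum, Nat.sub_self, bp]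
    have : ∀ i ∈ range (L + 1), bp w A i * bp w (B + 1) (L + 1 - i)
        = (1 - w) * (bp w A i * bp w B (L + 1 - i)) + w * (bp w A i * bp w B (L - i)) := by
      intro i hi
      have : L + 1 - i = (L - i) + 1 := by simp at hi; omega
      rw [this, bp]; ring
    rw [sum_congr rfl this, sum_add_distrib]
    ring

theorem sum_bp_succ (n M : ℕ) (f : ℕ → ℝ) :
    ∑ i ∈ range (M + 1), bp w (n + 1) i * f i
      = (1 - w) * (∑ i ∈ range (M + 1), bp w n i * f i)
        + w * ∑ i ∈ range M, bp w n i * f (i + 1) := by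
  rw [sum_range_succ' (n := M), sum_range_succ' (n := M), mul_add, mul_sum, mul_sum]
  have : ∀ i ∈ range M, bp w (n + 1) (i + 1) * f (i + 1)
      = (1 - w) * (bp w n (i + 1) * f (i + 1)) + w * (bp w n i * f (i + 1)) := by
    intro i _; rw [bp]; ring
  rw [sum_congr rfl this, sum_add_distrib, bp]
  ring

theorem sum_bp : ∀ n M : ℕ, n < M → ∑ i ∈ range M, bp w n i = 1
  | 0, M + 1, _ => by simp [sum_range_succ', bp]
  | n + 1, M + 1, h => by
    have := sum_bp_succ w n M fun _ => 1
    simp only [mul_one] at this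
    rw [this, sum_bp n (M + 1) (by omega), sum_bp n M (by omega)]
    ring
  | 0, 0, h => absurd h (lt_irrefl 0)
  | n + 1, 0, h => absurd h (by omega)

theorem sum_bp_le_one (h0 : 0 ≤ w) (h1 : w ≤ 1) (n : ℕ) (s : Finset ℕ) :
    ∑ i ∈ s, bp w n i ≤ 1 := by
  rw [← sum_bp w n (max (n + 1) (s.sup id + 1)) (by omega)]
  refine sum_le_sum_of_subset_of_nonneg (fun i hi => ?_) fun i _ _ => bp_nonneg w h0 h1 n i
  have : i ≤ s.sup id := le_sup (f := id) hi
  simp only [mem_range]; omega

theorem bp_moments : ∀ n M : ℕ, n < M →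
    (∑ i ∈ range M, bp w n i * ((i : ℝ) - n * w) = 0) ∧
    (∑ i ∈ range M, bp w n i * ((i : ℝ) - n * w) ^ 2 = n * (w * (1 - w))) ∧
    (∑ i ∈ range M, bp w n i * ((i : ℝ) - n * w) ^ 3 = n * (w * (1 - w)) * (1 - 2 * w)) ∧
    (∑ i ∈ range M, bp w n i * ((i : ℝ) - n * w) ^ 4
      = n * (w * (1 - w)) * (1 + 3 * ((n : ℝ) - 2) * (w * (1 - w))))
  | 0, M + 1, _ => by
    refine ⟨?_, ?_, ?_, ?_⟩ <;> simp [sum_range_succ', bp]
  | 0, 0, h => absurd h (lt_irrefl 0)
  | n + 1, 0, h => absurd h (by omega)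
  | n + 1, M + 1, h => by
    obtain ⟨a1, a2, a3, a4⟩ := bp_moments n (M + 1) (by omega)
    obtain ⟨b1, b2, b3, b4⟩ := bp_moments n M (by omega)
    have a0 := sum_bp w n (M + 1) (by omega)
    have b0 := sum_bp w n M (by omega)
    have ex : ∀ (R : ℕ) (c : ℝ),
        (∑ i ∈ range R, bp w n i * ((i : ℝ) - n * w + c)
          = (∑ i ∈ range R, bp w n i * ((i : ℝ) - n * w)) + c * ∑ i ∈ range R, bp w n i) ∧
        (∑ i ∈ range R, bp w n i * ((i : ℝ) - n * w + c) ^ 2
          = (∑ i ∈ range R, bp w n i * ((i : ℝ) - n * w) ^ 2)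
            + 2 * c * (∑ i ∈ range R, bp w n i * ((i : ℝ) - n * w))
            + c ^ 2 * ∑ i ∈ range R, bp w n i) ∧
        (∑ i ∈ range R, bp w n i * ((i : ℝ) - n * w + c) ^ 3
          = (∑ i ∈ range R, bp w n i * ((i : ℝ) - n * w) ^ 3)
            + 3 * c * (∑ i ∈ range R, bp w n i * ((i : ℝ) - n * w) ^ 2)
            + 3 * c ^ 2 * (∑ i ∈ range R, bp w n i * ((i : ℝ) - n * w))
            + c ^ 3 * ∑ i ∈ range R, bp w n i) ∧
        (∑ i ∈ range R, bp w n i * ((i : ℝ) - n * w + c) ^ 4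
          = (∑ i ∈ range R, bp w n i * ((i : ℝ) - n * w) ^ 4)
            + 4 * c * (∑ i ∈ range R, bp w n i * ((i : ℝ) - n * w) ^ 3)
            + 6 * c ^ 2 * (∑ i ∈ range R, bp w n i * ((i : ℝ) - n * w) ^ 2)
            + 4 * c ^ 3 * (∑ i ∈ range R, bp w n i * ((i : ℝ) - n * w))
            + c ^ 4 * ∑ i ∈ range R, bp w n i) := by
      intro R c
      refine ⟨?_, ?_, ?_, ?_⟩ <;>
        · simp only [mul_sum, ← sum_add_distrib]
          exact sum_congr rfl fun i _ => by ring
    obtain ⟨p1, p2, p3, p4⟩ := ex (M + 1) (-w)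
    obtain ⟨q1, q2, q3, q4⟩ := ex M (1 - w)
    rw [a0] at p1 p2 p3 p4
    rw [b0] at q1 q2 q3 q4
    rw [a1] at p1 p2 p3 p4
    rw [b1] at q1 q2 q3 q4
    rw [a2] at p2 p3 p4
    rw [b2] at q2 q3 q4
    rw [a3] at p3 p4
    rw [b3] at q3 q4
    rw [a4] at p4
    rw [b4] at q4
    have e : ∀ k : ℕ, ∑ i ∈ range (M + 1), bp w (n + 1) i * ((i : ℝ) - (n + 1 : ℕ) * w) ^ k
        = (1 - w) * (∑ i ∈ range (M + 1), bp w n i * ((i : ℝ) - n * w + -w) ^ k)
          + w * ∑ i ∈ range M, bp w n i * ((i : ℝ) - n * w + (1 - w)) ^ k := by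
      intro k
      rw [sum_bp_succ]
      congr 2 <;>
        · refine sum_congr rfl fun i _ => ?_
          push_cast; ring_nf
    refine ⟨?_, ?_, ?_, ?_⟩
    · have := e 1
      simp only [pow_one] at this
      rw [this, p1, q1]; ring
    · rw [e 2, p2, q2]; push_cast; ring
    · rw [e 3, p3, q3]; push_cast; ring
    · rw [e 4, p4, q4]; push_cast; ring

/-- The conditional second moment of the difference of two independent binomial variables. -/
theorem bp_diff_sq (N L : ℕ) :
    ∑ i ∈ range (L + 2), bp w (N + 1) i * bp w (N + 1) (L + 1 - i)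
        * (((L + 1 - i : ℕ) : ℝ) - i) ^ 2
      = 2 * (N + 1) * (w * (1 - w)) * bp w (2 * N) L := by
  set S : ℝ := (N : ℝ) + 1 with hS
  set F : ℕ → ℝ := fun i => bp w (N + 1) i * bp w (N + 1) (L + 1 - i) with hF
  have hrefl : ∑ i ∈ range (L + 2), F i * ((L + 1 - i : ℕ) : ℝ) ^ 2
      = ∑ i ∈ range (L + 2), F i * (i : ℝ) ^ 2 := by
    rw [← sum_range_reflect (fun i => F i * (i : ℝ) ^ 2)]
    refine sum_congr rfl fun i hi => ?_
    have hi' : i ≤ L + 1 := by simp at hi; omega
    have e1 : L + 2 - 1 - i = L + 1 - i := by omega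
    have e2 : L + 1 - (L + 1 - i) = i := by omega
    simp only [hF, e1, e2]; ring
  have hexp : ∑ i ∈ range (L + 2), F i * (((L + 1 - i : ℕ) : ℝ) - i) ^ 2
      = 2 * (∑ i ∈ range (L + 2), F i * (i : ℝ) ^ 2
          - ∑ i ∈ range (L + 2), F i * (i * ((L + 1 - i : ℕ) : ℝ))) := by
    rw [mul_sub, two_mul]
    nth_rewrite 2 [← hrefl]
    rw [mul_sum, ← sum_add_distrib, ← sum_sub_distrib]
    exact sum_congr rfl fun i _ => by ring
  have hT1 : ∑ i ∈ range (L + 2), F i * (i : ℝ) = S * w * bp w (2 * N + 1) L := by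
    have hc := bp_conv w N (N + 1) L
    rw [show N + (N + 1) = 2 * N + 1 by ring] at hc
    rw [sum_range_succ' (n := L + 1), ← hc, mul_sum]
    simp only [Nat.cast_zero, mul_zero, add_zero]
    refine sum_congr rfl fun i _ => ?_
    have := bp_succ_mul w N (i + 1)
    simp only [bs] at this
    simp only [hF, Nat.add_sub_add_right]
    rw [hS]
    linear_combination bp w (N + 1) (L - i) * this
  rcases L with _ | l
  · rw [hexp]
    have hT1' := hT1
    simp only [sum_range_succ, range_zero, sum_empty] at *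
    norm_num at *
    have hrec : bp w (2 * N + 1) 0 = (1 - w) * bp w (2 * N) 0 := by rw [bp]
    rw [hrec] at hT1'
    linear_combination 2 * hT1'
  · have hT2 : ∑ i ∈ range (l + 3), F i * (i * ((l + 2 - i : ℕ) : ℝ))
        = S ^ 2 * w ^ 2 * bp w (2 * N) l := by
      have hc := bp_conv w N N l
      rw [show N + N = 2 * N by ring] at hc
      rw [sum_range_succ, sum_range_succ' (n := l + 1), ← hc, mul_sum]
      simp only [Nat.sub_self, Nat.cast_zero, mul_zero, zero_mul, add_zero]
      refine sum_congr rfl fun i hi => ?_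
      have hi' : i ≤ l := by simp at hi; omega
      have e : l + 2 - (i + 1) = (l - i) + 1 := by omega
      have h1 := bp_succ_mul w N (i + 1)
      have h2 := bp_succ_mul w N (l - i + 1)
      simp only [bs] at h1 h2
      simp only [hF, e]
      rw [hS]
      linear_combination (bp w (N + 1) (l - i + 1) * ((l - i + 1 : ℕ) : ℝ)) * h1
        + ((N : ℝ) + 1) * w * bp w N i * h2
    have hT11 : ∑ i ∈ range (l + 3), F i * ((i : ℝ) * ((i : ℝ) - 1))
        = S * N * w ^ 2 * bp w (2 * N) l := by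
      rw [sum_range_succ' (n := l + 2), sum_range_succ' (n := l + 1)]
      simp only [Nat.cast_zero, mul_zero, zero_mul, add_zero, zero_add, Nat.cast_one, sub_self]
      rcases Nat.eq_zero_or_pos N with hN | hN
      · subst hN
        rw [sum_eq_zero]
        · simp
        · intro i _
          simp [hF, bp_eq_zero w 1 (i + 2) (by omega)]
      · have hc := bp_conv w (N - 1) (N + 1) l
        rw [show N - 1 + (N + 1) = 2 * N by omega] at hc
        rw [← hc, mul_sum]
        refine sum_congr rfl fun i _ => ?_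
        have h1 := bp_succ_mul w N (i + 1 + 1)
        simp only [bs] at h1
        have h2 := bp_mul_succ w N i
        simp only [hF, show l + 1 + 1 - (i + 1 + 1) = l - i by omega]
        push_cast at *
        rw [hS]
        linear_combination (bp w (N + 1) (l - i) * ((i : ℝ) + 1)) * h1
          + ((N : ℝ) + 1) * w * bp w (N + 1) (l - i) * h2
    have hsq : ∑ i ∈ range (l + 3), F i * (i : ℝ) ^ 2
        = ∑ i ∈ range (l + 3), F i * ((i : ℝ) * ((i : ℝ) - 1))
          + ∑ i ∈ range (l + 3), F i * (i : ℝ) := by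
      rw [← sum_add_distrib]; exact sum_congr rfl fun i _ => by ring
    rw [hexp, hsq, hT11, hT1, hT2]
    have hrec : bp w (2 * N + 1) (l + 1)
        = (1 - w) * bp w (2 * N) (l + 1) + w * bp w (2 * N) l := by rw [bp]
    rw [hrec, hS]
    ring

theorem bp_cross (N i j : ℕ) :
    (bp w N i * bs w N j - bs w N i * bp w N j) * (((N : ℝ) + 1) * (w * (1 - w)))
      = bp w (N + 1) i * bp w (N + 1) j * ((j : ℝ) - i) := by
  have hi := bp_succ_mul_sub w N i
  have hj := bp_succ_mul_sub w N j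
  have hi' := bp_succ_mul w N i
  have hj' := bp_succ_mul w N j
  have hne : ((N : ℝ) + 1) ≠ 0 := by positivity
  apply mul_right_cancel₀ hne
  linear_combination (-(bp w (N + 1) j * (j : ℝ))) * hi
    - ((N : ℝ) + 1) * (1 - w) * bp w N i * hj' + bp w (N + 1) i * (i : ℝ) * hj
    + ((N : ℝ) + 1) * (1 - w) * bp w N j * hi'

/-- The largest conditional weight is controlled by the two neighbouring binomial weights. -/
theorem bp_mul_bp_le (h0 : 0 < w) (h1 : w < 1) (n M i : ℕ) (hi : i ≤ M) :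
    bp w n i * bp w n (M - i)
      ≤ Real.sqrt (2 * bp w (2 * n + 2) (M + 1) * bp w (2 * n) M
          / (((n : ℝ) + 1) * (w * (1 - w)))) := by
  set c : ℝ := ((n : ℝ) + 1) * (w * (1 - w)) with hc
  have hcpos : 0 < c := by
    rw [hc]; have : 0 < 1 - w := by linarith
    positivity
  set D : ℕ → ℝ := fun k => bp w (n + 1) k * bp w (n + 1) (M + 1 - k)
    * (((M + 1 - k : ℕ) : ℝ) - k) / c with hD
  have htel : ∀ k, k ≤ M → bp w n k * bp w n (M - k) = ∑ j ∈ range (k + 1), D j := by
    intro k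
    induction k with
    | zero =>
      intro _
      have h := bp_cross w n 0 (M + 1)
      simp only [bs, zero_mul, sub_zero] at h
      simp only [hD, zero_add, sum_range_one, Nat.sub_zero]
      rw [eq_div_iff hcpos.ne', hc]
      exact h
    | succ k ih =>
      intro hk
      rw [sum_range_succ, ← ih (by omega)]
      have h := bp_cross w n (k + 1) (M - k)
      obtain ⟨r, hr⟩ : ∃ r, M - k = r + 1 := ⟨M - k - 1, by omega⟩
      have e1 : M - (k + 1) = r := by omega
      have e2 : M + 1 - (k + 1) = r + 1 := by omega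
      rw [hr] at h ⊢
      simp only [bs] at h
      simp only [hD, e1, e2]
      rw [← sub_eq_iff_eq_add', eq_div_iff hcpos.ne', hc]
      exact h
  rw [htel i hi]
  have hsub : range (i + 1) ⊆ range (M + 2) := fun j hj => by simp at hj ⊢; omega
  refine (sum_le_sum fun j _ => le_abs_self (D j)).trans ?_
  refine (sum_le_sum_of_subset_of_nonneg hsub fun j _ _ => abs_nonneg _).trans ?_
  have hb := bp_nonneg w h0.le h1.le (n + 1)
  have hterm : ∀ j, |D j| = Real.sqrt (bp w (n + 1) j * bp w (n + 1) (M + 1 - j))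
      * (Real.sqrt (bp w (n + 1) j * bp w (n + 1) (M + 1 - j))
          * |((M + 1 - j : ℕ) : ℝ) - j| / c) := by
    intro j
    have := Real.mul_self_sqrt (mul_nonneg (hb j) (hb (M + 1 - j)))
    simp only [hD, abs_div, abs_mul, abs_of_pos hcpos, abs_of_nonneg (hb _)]
    rw [← mul_div_assoc, ← mul_assoc, this]
  refine Real.le_sqrt_of_sq_le ?_
  rw [sum_congr rfl fun j _ => hterm j]
  refine (sum_mul_sq_le_sq_mul_sq _ _ _).trans_eq ?_
  have e1 : ∀ j, Real.sqrt (bp w (n + 1) j * bp w (n + 1) (M + 1 - j)) ^ 2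
      = bp w (n + 1) j * bp w (n + 1) (M + 1 - j) :=
    fun j => Real.sq_sqrt (mul_nonneg (hb j) (hb _))
  have hv := bp_diff_sq w n M
  have hconv := bp_conv w (n + 1) (n + 1) (M + 1)
  rw [show n + 1 + (n + 1) = 2 * n + 2 by ring] at hconv
  simp only [div_pow, mul_pow, sq_abs, e1]
  rw [hconv, ← sum_div, hv, hc]
  have : 0 < 1 - w := by linarith
  field_simp

end Vale.Agent.P321
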