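import Mathlib

/-!
Trace reconstruction over the deletion channel: the basic definitions.
-/

open scoped BigOperators

namespace Vale.Agent.P321

/-- `traceProb q x z` is the probability that the word `z` is the trace of `x`, when every bit of `x`
is deleted independently with probability `q` and the surviving bits are concatenated in order. -/
noncomputable def traceProb (q : ℝ) : List Bool → List Bool → ℝ
  | [], [] => 1
  | [], _ :: _ => 0
  | _ :: x, [] => q * traceProb q x []
  | b :: x, c :: w => q * traceProb q x (c :: w) + if c = b then (1 - q) * traceProb q x w else 0

/-- `Reconstructs q n m` says that some randomized estimator reconstructs every word of length `n`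
with probability at least `2/3` from `m` independent traces. `E s x` is the probability that the
estimator outputs `x` on the samples `s`. -/
def Reconstructs (q : ℝ) (n m : ℕ) : Prop :=
  ∃ E : (Fin m → List Bool) → List Bool → ℝ,
    (∀ s x, 0 ≤ E s x) ∧
    (∀ s, ∀ S : Finset (List Bool), ∑ x ∈ S, E s x ≤ 1) ∧
    ∀ x : List Bool, x.length = n →
      2 / 3 ≤ ∑' s : Fin m → List Bool, (∏ i, traceProb q x (s i)) * E s x

/-- The worst-case sample complexity of trace reconstruction: the least number of traces from which
every word of length `n` can be reconstructed with probability at least `2/3`. -/
noncomputable def sampleComplexity (q : ℝ) (n : ℕ) : ℕ :=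
  sInf {m : ℕ | Reconstructs q n m}

end Vale.Agent.P321
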