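import Mathlib
import Vale.Agent.P321.Defs
import Vale.Agent.P321.Algebra

/-!
Trace laws as elements of the monoid algebra, and the two point method.
-/

open scoped BigOperators

noncomputable section

namespace Vale.Agent.P321

open MonoidAlgebra (single)

/-- The trace law, as a monoid homomorphism from words to measures on words. -/
def mu (q : ℝ) : W →* A :=
  FreeMonoid.lift fun b => q • (1 : A) + (1 - q) • single (FreeMonoid.of b) (1 : ℝ)

theorem mu_of (q : ℝ) (b : Bool) :
    mu q (FreeMonoid.of b) = q • (1 : A) + (1 - q) • single (FreeMonoid.of b) (1 : ℝ) := by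
  simp [mu]

theorem coeff_of_mul_nil (b : Bool) (Y : A) :
    (single (FreeMonoid.of b) (1 : ℝ) * Y).coeff (FreeMonoid.ofList []) = 0 := by
  refine MonoidAlgebra.coeff_single_mul_of_forall_mul_ne _ _ fun d h => ?_
  have h' := congrArg FreeMonoid.toList h
  simp [FreeMonoid.toList_mul] at h'

theorem coeff_of_mul_cons (b c : Bool) (w : List Bool) (Y : A) :
    (single (FreeMonoid.of b) (1 : ℝ) * Y).coeff (FreeMonoid.ofList (c :: w))
      = if c = b then Y.coeff (FreeMonoid.ofList w) else 0 := by
  split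
  next h =>
    subst h
    rw [MonoidAlgebra.coeff_single_mul_eq_mul_coeff (FreeMonoid.ofList w), one_mul]
    intro m' _
    rw [FreeMonoid.ofList_cons]
    constructor
    · intro h
      exact List.cons_injective (congrArg FreeMonoid.toList h)
    · intro h; rw [h]
  next h =>
    refine MonoidAlgebra.coeff_single_mul_of_forall_mul_ne _ _ fun d hd => h ?_
    have h' : b :: FreeMonoid.toList d = c :: w := by
      simpa [FreeMonoid.toList_mul] using congrArg FreeMonoid.toList hd
    exact ((List.cons.injEq _ _ _ _).mp h').1.symm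

theorem mu_coeff (q : ℝ) : ∀ x z : List Bool,
    (mu q (FreeMonoid.ofList x)).coeff (FreeMonoid.ofList z) = traceProb q x z
  | [], [] => by simp [traceProb, MonoidAlgebra.one_def]
  | [], c :: w => by
    have : FreeMonoid.ofList (c :: w) ≠ (1 : W) := fun h => by
      simpa using congrArg FreeMonoid.toList h
    simp [traceProb, MonoidAlgebra.one_def, FreeMonoid.ofList_nil, Finsupp.single_apply,
      this.symm]
  | b :: x, [] => by
    have ih := mu_coeff q x []
    rw [FreeMonoid.ofList_cons, map_mul, mu_of, add_mul, smul_mul_assoc, smul_mul_assoc, one_mul,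
      MonoidAlgebra.coeff_add, Finsupp.add_apply, MonoidAlgebra.coeff_smul_apply,
      MonoidAlgebra.coeff_smul_apply, coeff_of_mul_nil, ih]
    simp [traceProb]
  | b :: x, c :: w => by
    have ih := mu_coeff q x (c :: w)
    have ih' := mu_coeff q x w
    rw [FreeMonoid.ofList_cons b, map_mul, mu_of, add_mul, smul_mul_assoc, smul_mul_assoc, one_mul,
      MonoidAlgebra.coeff_add, Finsupp.add_apply, MonoidAlgebra.coeff_smul_apply,
      MonoidAlgebra.coeff_smul_apply, coeff_of_mul_cons, ih, ih']
    simp only [traceProb, smul_eq_mul]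
    split <;> ring

theorem mu_pos {q : ℝ} (h0 : 0 ≤ q) (h1 : q ≤ 1) (x : W) : Pos (mu q x) := by
  induction x using FreeMonoid.recOn with
  | one => simpa using Pos.one
  | of_mul b x ih =>
    rw [map_mul, mu_of]
    exact ((Pos.one.smul h0).add ((Pos.single zero_le_one).smul (sub_nonneg.2 h1))).mul ih

theorem mu_mass (q : ℝ) (x : W) : mass (mu q x) = 1 := by
  induction x using FreeMonoid.recOn with
  | one => simp [mass_one]
  | of_mul b x ih => rw [map_mul, mu_of, mass_mul, ih]; simp [mass_one, mass_single]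

theorem traceProb_nonneg {q : ℝ} (h0 : 0 ≤ q) (h1 : q ≤ 1) (x z : List Bool) :
    0 ≤ traceProb q x z := by
  rw [← mu_coeff]; exact mu_pos h0 h1 _ _

/-- The test function of the symmetric chi squared distance. -/
def chiTest (X Y : A) (z : W) : ℝ := (X.coeff z - Y.coeff z) / (X.coeff z + Y.coeff z)

/-- Symmetric chi squared distance `∑ (X - Y)² / (X + Y)`. -/
def chiDist (X Y : A) : ℝ := ev (chiTest X Y) (X - Y)

theorem abs_chiTest_le {X Y : A} (hX : Pos X) (hY : Pos Y) (z : W) : |chiTest X Y z| ≤ 1 := by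
  unfold chiTest
  rw [abs_div, abs_of_nonneg (add_nonneg (hX z) (hY z))]
  refine div_le_one_of_le₀ ?_ (add_nonneg (hX z) (hY z))
  rw [abs_le]; constructor <;> linarith [hX z, hY z]

theorem chiDist_eq_sum (X Y : A) (S : Finset W) (hX : X.coeff.support ⊆ S)
    (hY : Y.coeff.support ⊆ S) :
    chiDist X Y = ∑ z ∈ S, (X.coeff z - Y.coeff z) ^ 2 / (X.coeff z + Y.coeff z) := by
  rw [chiDist, map_sub, ev_apply_of_subset _ X S hX, ev_apply_of_subset _ Y S hY,
    ← Finset.sum_sub_distrib]
  refine Finset.sum_congr rfl fun z _ => ?_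
  unfold chiTest
  ring

theorem chiDist_le_l1 {X Y : A} (hX : Pos X) (hY : Pos Y) : chiDist X Y ≤ l1 (X - Y) := by
  simpa [chiDist] using
    (le_abs_self _).trans (abs_ev_le (X := X - Y) (abs_chiTest_le hX hY))

theorem ev_chiTest_sq {X Y : A} (hX : Pos X) (hY : Pos Y) :
    ev (fun z => chiTest X Y z ^ 2) (X + Y) = chiDist X Y := by
  classical
  set S := X.coeff.support ∪ Y.coeff.support
  rw [chiDist_eq_sum X Y S Finset.subset_union_left Finset.subset_union_right, map_add,
    ev_apply_of_subset _ X S Finset.subset_union_left,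
    ev_apply_of_subset _ Y S Finset.subset_union_right, ← Finset.sum_add_distrib]
  refine Finset.sum_congr rfl fun z _ => ?_
  unfold chiTest
  rcases eq_or_ne (X.coeff z + Y.coeff z) 0 with h | h
  · simp [h]
  · field_simp

theorem chiDist_nonneg {X Y : A} (hX : Pos X) (hY : Pos Y) : 0 ≤ chiDist X Y :=
  ev_chiTest_sq hX hY ▸ ev_nonneg (hX.add hY) fun _ => sq_nonneg _

theorem sqrt_sub_sq_le {a b : ℝ} (ha : 0 ≤ a) (hb : 0 ≤ b) :
    a + b - 2 * Real.sqrt (a * b) ≤ (a - b) ^ 2 / (a + b) := by
  rcases (add_nonneg ha hb).eq_or_lt with h | h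
  · obtain ⟨rfl, rfl⟩ : a = 0 ∧ b = 0 := ⟨by linarith, by linarith⟩
    simp
  · rw [le_div_iff₀ h]
    have hs := Real.sq_sqrt (mul_nonneg ha hb)
    have hs0 := Real.sqrt_nonneg (a * b)
    have hle : 2 * Real.sqrt (a * b) ≤ a + b := by nlinarith [sq_nonneg (a - b)]
    nlinarith [mul_nonneg hs0 (sub_nonneg.2 hle)]

/-- Le Cam's inequality on a finite set: the `ℓ¹` distance is controlled by the affinity. -/
theorem sq_sum_abs_sub_le {ι : Type*} (S : Finset ι) (a b : ι → ℝ) (ha : ∀ i ∈ S, 0 ≤ a i)
    (hb : ∀ i ∈ S, 0 ≤ b i) (ha1 : ∑ i ∈ S, a i = 1) (hb1 : ∑ i ∈ S, b i = 1) :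
    (∑ i ∈ S, |a i - b i|) ^ 2 ≤ 8 * (1 - ∑ i ∈ S, Real.sqrt (a i * b i)) := by
  have hterm : ∀ i ∈ S, |a i - b i|
      = |Real.sqrt (a i) - Real.sqrt (b i)| * (Real.sqrt (a i) + Real.sqrt (b i)) := by
    intro i hi
    have h1 := Real.sq_sqrt (ha i hi)
    have h2 := Real.sq_sqrt (hb i hi)
    rw [← abs_of_nonneg (add_nonneg (Real.sqrt_nonneg (a i)) (Real.sqrt_nonneg (b i))), ← abs_mul]
    congr 1
    linear_combination -h1 + h2
  rw [Finset.sum_congr rfl hterm]
  refine (Finset.sum_mul_sq_le_sq_mul_sq _ _ _).trans ?_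
  have e1 : ∑ i ∈ S, |Real.sqrt (a i) - Real.sqrt (b i)| ^ 2
      = 2 * (1 - ∑ i ∈ S, Real.sqrt (a i * b i)) := by
    have : ∀ i ∈ S, |Real.sqrt (a i) - Real.sqrt (b i)| ^ 2
        = a i + b i - 2 * Real.sqrt (a i * b i) := fun i hi => by
      rw [sq_abs, Real.sqrt_mul (ha i hi)]
      linear_combination Real.sq_sqrt (ha i hi) + Real.sq_sqrt (hb i hi)
    rw [Finset.sum_congr rfl this, Finset.sum_sub_distrib, Finset.sum_add_distrib, ha1, hb1,
      ← Finset.mul_sum]
    ring
  have e2 : ∑ i ∈ S, (Real.sqrt (a i) + Real.sqrt (b i)) ^ 2 ≤ 4 := by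
    refine (Finset.sum_le_sum (g := fun i => 2 * a i + 2 * b i) fun i hi => ?_).trans ?_
    · nlinarith [Real.sq_sqrt (ha i hi), Real.sq_sqrt (hb i hi),
        sq_nonneg (Real.sqrt (a i) - Real.sqrt (b i))]
    · rw [Finset.sum_add_distrib, ← Finset.mul_sum, ← Finset.mul_sum, ha1, hb1]; norm_num
  have e3 : (0 : ℝ) ≤ ∑ i ∈ S, |Real.sqrt (a i) - Real.sqrt (b i)| ^ 2 :=
    Finset.sum_nonneg fun _ _ => sq_nonneg _
  rw [e1] at e3 ⊢
  calc _ ≤ 2 * (1 - ∑ i ∈ S, Real.sqrt (a i * b i)) * 4 := mul_le_mul_of_nonneg_left e2 e3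
    _ = _ := by ring

/-- The two point lower bound for trace reconstruction. -/
theorem two_point {q : ℝ} (h0 : 0 ≤ q) (h1 : q ≤ 1) {n m : ℕ} (hR : Reconstructs q n m)
    {x y : W} (hx : (FreeMonoid.toList x).length = n) (hy : (FreeMonoid.toList y).length = n)
    (hxy : x ≠ y) {δ : ℝ} (hδ : chiDist (mu q x) (mu q y) ≤ δ) : 1 / 9 ≤ (m : ℝ) * δ := by
  classical
  obtain ⟨E, hE0, hE1, hE⟩ := hR
  set S : Finset (List Bool) :=
    ((mu q x).coeff.support ∪ (mu q y).coeff.support).map FreeMonoid.toList.toEmbedding with hS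
  have hsum : ∀ u : W, (mu q u).coeff.support ⊆ (mu q x).coeff.support ∪ (mu q y).coeff.support →
      ∑ z ∈ S, traceProb q (FreeMonoid.toList u) z = 1 := by
    intro u hu
    rw [hS, Finset.sum_map, ← mu_mass q u, mass, ev_apply_of_subset _ _ _ hu]
    refine Finset.sum_congr rfl fun z _ => ?_
    rw [mul_one, Equiv.coe_toEmbedding, ← mu_coeff]; rfl
  have hvanish : ∀ u : W, (mu q u).coeff.support ⊆ (mu q x).coeff.support ∪ (mu q y).coeff.support →
      ∀ z ∉ S, traceProb q (FreeMonoid.toList u) z = 0 := by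
    intro u hu z hz
    rw [← mu_coeff, FreeMonoid.ofList_toList]
    refine Finsupp.notMem_support_iff.1 fun h => hz ?_
    rw [hS]
    exact Finset.mem_map.2 ⟨FreeMonoid.ofList z, hu h, rfl⟩
  set P := fun z => traceProb q (FreeMonoid.toList x) z with hPdef
  set R := fun z => traceProb q (FreeMonoid.toList y) z with hRdef
  have hP0 : ∀ z, 0 ≤ P z := fun z => traceProb_nonneg h0 h1 _ _
  have hR0 : ∀ z, 0 ≤ R z := fun z => traceProb_nonneg h0 h1 _ _
  have hP1 := hsum x Finset.subset_union_left
  have hR1 := hsum y Finset.subset_union_right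
  set T := Fintype.piFinset fun _ : Fin m => S with hT
  have htsum : ∀ u : W,
      (mu q u).coeff.support ⊆ (mu q x).coeff.support ∪ (mu q y).coeff.support →
      ∀ w : List Bool,
      ∑' s : Fin m → List Bool, (∏ i, traceProb q (FreeMonoid.toList u) (s i)) * E s w
        = ∑ s ∈ T, (∏ i, traceProb q (FreeMonoid.toList u) (s i)) * E s w := by
    intro u hu w
    refine tsum_eq_sum fun s hs => ?_
    obtain ⟨i, hi⟩ : ∃ i, s i ∉ S := by simpa [hT, Fintype.mem_piFinset] using hs
    rw [Finset.prod_eq_zero (Finset.mem_univ i) (hvanish u hu _ hi), zero_mul]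
  have hA := hE _ hx
  have hB := hE _ hy
  rw [htsum x Finset.subset_union_left] at hA
  rw [htsum y Finset.subset_union_right] at hB
  set a := fun s : Fin m → List Bool => ∏ i, P (s i) with ha
  set b := fun s : Fin m → List Bool => ∏ i, R (s i) with hb
  have ha0 : ∀ s ∈ T, 0 ≤ a s := fun s _ => Finset.prod_nonneg fun i _ => hP0 _
  have hb0 : ∀ s ∈ T, 0 ≤ b s := fun s _ => Finset.prod_nonneg fun i _ => hR0 _
  have ha1 : ∑ s ∈ T, a s = 1 := by
    rw [hT, ← Finset.prod_univ_sum (fun _ => S) (fun _ z => P z)]; simp [hPdef, hP1]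
  have hb1 : ∑ s ∈ T, b s = 1 := by
    rw [hT, ← Finset.prod_univ_sum (fun _ => S) (fun _ z => R z)]; simp [hRdef, hR1]
  have key : (4 : ℝ) / 3 ≤ ∑ s ∈ T, (a s + b s + |a s - b s|) / 2 := by
    have hne : FreeMonoid.toList x ≠ FreeMonoid.toList y :=
      fun h => hxy (FreeMonoid.toList.injective h)
    calc (4 : ℝ) / 3 ≤ ∑ s ∈ T, a s * E s (FreeMonoid.toList x)
          + ∑ s ∈ T, b s * E s (FreeMonoid.toList y) := by simp only [ha, hb, hPdef, hRdef]; linarith
      _ ≤ _ := by
        rw [← Finset.sum_add_distrib]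
        refine Finset.sum_le_sum fun s hs => ?_
        have h2 := hE1 s {FreeMonoid.toList x, FreeMonoid.toList y}
        rw [Finset.sum_pair hne] at h2
        have hu := hE0 s (FreeMonoid.toList x)
        have hv := hE0 s (FreeMonoid.toList y)
        rcases le_total (a s) (b s) with h | h
        · rw [abs_of_nonpos (sub_nonpos.2 h)]
          nlinarith [mul_le_mul_of_nonneg_right h hu, mul_le_mul_of_nonneg_left h2 (hb0 s hs)]
        · rw [abs_of_nonneg (sub_nonneg.2 h)]
          nlinarith [mul_le_mul_of_nonneg_right h hv, mul_le_mul_of_nonneg_left h2 (ha0 s hs)]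
  rw [← Finset.sum_div, Finset.sum_add_distrib, Finset.sum_add_distrib, ha1, hb1] at key
  have hlc := sq_sum_abs_sub_le T a b ha0 hb0 ha1 hb1
  have hsq : ∀ s : Fin m → List Bool,
      Real.sqrt (a s * b s) = ∏ i, Real.sqrt (P (s i) * R (s i)) := by
    intro s
    rw [ha, hb]
    simp only [← Finset.prod_mul_distrib]
    exact Real.sqrt_prod _ fun i _ => mul_nonneg (hP0 _) (hR0 _)
  have hpow : ∑ s ∈ T, Real.sqrt (a s * b s) = (∑ z ∈ S, Real.sqrt (P z * R z)) ^ m := by
    simp only [hsq]
    rw [hT, ← Finset.prod_univ_sum (fun _ => S) (fun _ z => Real.sqrt (P z * R z))]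
    simp
  set B := ∑ z ∈ S, Real.sqrt (P z * R z) with hBdef
  have hB0 : 0 ≤ B := Finset.sum_nonneg fun _ _ => Real.sqrt_nonneg _
  have hbern : 1 - (m : ℝ) * (1 - B) ≤ B ^ m := by
    have := one_add_mul_sub_le_pow (by linarith : (-1 : ℝ) ≤ B) m
    linarith
  have hchi : 2 * (1 - B) ≤ δ := by
    refine le_trans ?_ hδ
    rw [chiDist_eq_sum _ _ _ Finset.subset_union_left Finset.subset_union_right]
    have : 2 * (1 - B) = ∑ z ∈ S, (P z + R z - 2 * Real.sqrt (P z * R z)) := by
      rw [Finset.sum_sub_distrib, Finset.sum_add_distrib, hP1, hR1, hBdef, ← Finset.mul_sum]; ring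
    rw [this, hS, Finset.sum_map]
    refine Finset.sum_le_sum fun z _ => ?_
    refine (sqrt_sub_sq_le (hP0 _) (hR0 _)).trans_eq ?_
    simp only [hPdef, hRdef, Equiv.coe_toEmbedding, ← mu_coeff, FreeMonoid.ofList_toList]
  rw [hpow] at hlc
  have : (2 / 3 : ℝ) ≤ ∑ s ∈ T, |a s - b s| := by linarith
  have h49 : (4 / 9 : ℝ) ≤ (∑ s ∈ T, |a s - b s|) ^ 2 := by nlinarith
  have hm : (m : ℝ) * (2 * (1 - B)) ≤ m * δ := mul_le_mul_of_nonneg_left hchi (by positivity)
  linarith

theorem reconstructs_exists {q : ℝ} (h0 : 0 ≤ q) (h1 : q < 1) (n : ℕ) :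
    ∃ m, Reconstructs q n m := by
  classical
  set c : ℝ := (1 - q) ^ n with hc
  have hcpos : 0 < c := pow_pos (by linarith) n
  have hc1 : c ≤ 1 := pow_le_one₀ (by linarith) (by linarith)
  obtain ⟨m, hm⟩ := exists_pow_lt_of_lt_one (show (0 : ℝ) < 1 / 3 by norm_num)
    (show 1 - c < 1 by linarith)
  let pick : (Fin m → List Bool) → List Bool := fun s =>
    if h : ∃ i, (s i).length = n then s h.choose else []
  refine ⟨m, fun s x => if pick s = x then 1 else 0, fun s x => by dsimp; split <;> simp,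
    fun s U => by rw [Finset.sum_ite_eq]; split <;> simp, fun x hx => ?_⟩
  have hlong : ∀ (u z : List Bool), u.length < z.length → traceProb q u z = 0 := by
    intro u
    induction u with
    | nil => intro z hz; cases z with
      | nil => simp at hz
      | cons => simp [traceProb]
    | cons b u ih => intro z hz; cases z with
      | nil => simp at hz
      | cons d w =>
        simp only [List.length_cons] at hz
        simp [traceProb, ih (d :: w) (by simp; omega), ih w (by omega)]
  have heq : ∀ (u z : List Bool), u.length = z.length →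
      traceProb q u z = if z = u then (1 - q) ^ u.length else 0 := by
    intro u
    induction u with
    | nil => intro z hz; cases z with
      | nil => simp [traceProb]
      | cons => simp at hz
    | cons b u ih => intro z hz; cases z with
      | nil => simp at hz
      | cons d w =>
        simp only [List.length_cons] at hz
        simp only [traceProb, hlong u (d :: w) (by simp; omega), ih w (by omega), mul_zero,
          zero_add, List.cons.injEq, List.length_cons]
        split_ifs <;> simp_all [pow_succ'] 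
  set S : Finset (List Bool) :=
    (mu q (FreeMonoid.ofList x)).coeff.support.map FreeMonoid.toList.toEmbedding with hS
  have hxS : x ∈ S := by
    rw [hS, Finset.mem_map]
    refine ⟨FreeMonoid.ofList x, ?_, rfl⟩
    rw [Finsupp.mem_support_iff, mu_coeff, heq x x rfl, if_pos rfl, hx]
    exact hcpos.ne'
  have hvanish : ∀ z ∉ S, traceProb q x z = 0 := by
    intro z hz
    rw [← mu_coeff]
    refine Finsupp.notMem_support_iff.1 fun h => hz ?_
    rw [hS]
    exact Finset.mem_map.2 ⟨FreeMonoid.ofList z, h, rfl⟩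
  have hsum : ∑ z ∈ S, traceProb q x z = 1 := by
    rw [hS, Finset.sum_map, ← mu_mass q (FreeMonoid.ofList x), mass, ev_apply]
    refine Finset.sum_congr rfl fun z _ => ?_
    rw [mul_one, Equiv.coe_toEmbedding, ← mu_coeff]; rfl
  have hnn := traceProb_nonneg h0 h1.le
  set T := Fintype.piFinset fun _ : Fin m => S with hT
  set U := Fintype.piFinset fun _ : Fin m => S.erase x with hU
  rw [tsum_eq_sum (s := T) fun s hs => by
    obtain ⟨i, hi⟩ : ∃ i, s i ∉ S := by simpa [hT, Fintype.mem_piFinset] using hs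
    rw [Finset.prod_eq_zero (Finset.mem_univ i) (hvanish _ hi), zero_mul]]
  have hUT : U ⊆ T := Fintype.piFinset_subset _ _ fun _ => Finset.erase_subset _ _
  have hgood : ∀ s ∈ T \ U, (∏ i, traceProb q x (s i))
      ≤ (∏ i, traceProb q x (s i)) * if pick s = x then 1 else 0 := by
    intro s hs
    rcases eq_or_ne (∏ i, traceProb q x (s i)) 0 with h | h
    · simp [h]
    · have hex : ∃ i, (s i).length = n := by
        simp only [Finset.mem_sdiff, hT, hU, Fintype.mem_piFinset, Finset.mem_erase, not_forall]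
          at hs
        obtain ⟨hsS, i, hi⟩ := hs
        exact ⟨i, by
          have : s i = x := by by_contra hne; exact hi ⟨hne, hsS i⟩
          rw [this, hx]⟩
      have hval : pick s = x := by
        simp only [pick, dif_pos hex]
        by_contra hne
        refine h (Finset.prod_eq_zero (Finset.mem_univ hex.choose) ?_)
        rw [heq _ _ (by rw [hx, hex.choose_spec]), if_neg hne]
      simp [hval]
  have hprodT : ∑ s ∈ T, ∏ i, traceProb q x (s i) = 1 := by
    rw [hT, ← Finset.prod_univ_sum (fun _ => S) (fun _ z => traceProb q x z)]; simp [hsum]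
  have hprodU : ∑ s ∈ U, ∏ i, traceProb q x (s i) = (1 - c) ^ m := by
    rw [hU, ← Finset.prod_univ_sum (fun _ => S.erase x) (fun _ z => traceProb q x z)]
    simp [Finset.sum_erase_eq_sub hxS, hsum, heq x x rfl, hx, hc]
  calc (2 : ℝ) / 3 ≤ ∑ s ∈ T \ U, ∏ i, traceProb q x (s i) := by
        rw [Finset.sum_sdiff_eq_sub hUT, hprodT, hprodU]; linarith
    _ ≤ ∑ s ∈ T \ U, (∏ i, traceProb q x (s i)) * if pick s = x then 1 else 0 :=
        Finset.sum_le_sum hgood
    _ ≤ _ := Finset.sum_le_sum_of_subset_of_nonneg Finset.sdiff_subset fun s _ _ =>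
        mul_nonneg (Finset.prod_nonneg fun i _ => hnn _ _) (by split <;> simp)

/-- The least number of traces is attained, so lower bounds on successful sample sizes transfer. -/
theorem reconstructs_sampleComplexity {q : ℝ} (h0 : 0 ≤ q) (h1 : q < 1) (n : ℕ) :
    Reconstructs q n (sampleComplexity q n) :=
  Nat.sInf_mem (reconstructs_exists h0 h1 n)

theorem sampleComplexity_pos {q : ℝ} (h0 : 0 ≤ q) (h1 : q < 1) {n : ℕ} (hn : 0 < n) :
    0 < sampleComplexity q n := by
  by_contra h
  have h' : sampleComplexity q n = 0 := by omega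
  have hR := reconstructs_sampleComplexity h0 h1 n
  rw [h'] at hR
  have hd := two_point h0 h1.le hR (x := FreeMonoid.ofList (List.replicate n true))
    (y := FreeMonoid.ofList (List.replicate n false)) (by simp) (by simp) (fun h => by
      have := congrArg FreeMonoid.toList h
      simp at this
      omega) le_rfl
  simp at hd
  linarith

end Vale.Agent.P321
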