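import Mathlib
import Vale.Agent.P321.Algebra

/-!
Orthogonality of a zero mass perturbation placed at different positions of an i.i.d. word.
-/

open scoped BigOperators
open Finset

noncomputable section

namespace Vale.Agent.P321

theorem ev_sub_test (φ ψ : W → ℝ) (X : A) :
    ev (fun z => φ z - ψ z) X = ev φ X - ev ψ X := by
  simp [ev_apply, mul_sub, Finset.sum_sub_distrib]

theorem ev_sum_test {ι : Type*} (s : Finset ι) (φ : ι → W → ℝ) (X : A) :
    ev (fun z => ∑ i ∈ s, φ i z) X = ∑ i ∈ s, ev (φ i) X := by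
  simp only [ev_apply, Finset.mul_sum]
  exact Finset.sum_comm

theorem ev_le_of_sub_pos {X Y : A} (h : Pos (Y - X)) {φ : W → ℝ} (hφ : ∀ z, 0 ≤ φ z) :
    ev φ X ≤ ev φ Y := by
  have := ev_nonneg h hφ
  rw [map_sub] at this
  linarith

variable {Q G : A} {a : ℝ}

theorem one_step (hQ1 : mass Q = 1) (hG : Pos G) (hG1 : mass G = 1) (ha : 0 < a)
    (hdom : Pos (Q - a • G)) (h : W → ℝ) :
    (ev h (G - Q)) ^ 2 ≤ (ev (fun z => h z ^ 2) Q - (ev h Q) ^ 2) / a := by
  set c := ev h Q with hc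
  have e1 : ev h (G - Q) = ev (fun z => h z - c) G := by
    rw [ev_sub_test, ev_const, hG1, map_sub]; simp [hc]
  have e2 : ev (fun z => (h z - c) ^ 2) Q = ev (fun z => h z ^ 2) Q - c ^ 2 := by
    have : (fun z => (h z - c) ^ 2) = fun z => h z ^ 2 + ((-2 * c) * h z + c ^ 2) := by
      funext z; ring
    rw [this, ev_congr_add, ev_congr_add, ev_smul_test, ev_const, hQ1, ← hc]
    ring
  have h2 := ev_le_of_sub_pos hdom (φ := fun z => (h z - c) ^ 2) fun z => sq_nonneg _
  rw [map_smul, smul_eq_mul, e2] at h2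
  rw [e1, le_div_iff₀ ha]
  calc _ ≤ ev (fun z => (h z - c) ^ 2) G * a :=
        mul_le_mul_of_nonneg_right (jensen hG hG1 _) ha.le
    _ ≤ _ := by linarith

/-- Bessel's inequality for the translates of `G - Q` inside a product of copies of `Q`. -/
theorem ortho (hQ : Pos Q) (hQ1 : mass Q = 1) (hG : Pos G) (hG1 : mass G = 1) (ha : 0 < a)
    (hdom : Pos (Q - a • G)) : ∀ (L : ℕ) (φ : W → ℝ),
    ∑ i ∈ range (L + 1), (ev φ (Q ^ i * (G - Q) * Q ^ (L - i))) ^ 2
      ≤ (ev (fun z => φ z ^ 2) (Q ^ (L + 1)) - (ev φ (Q ^ (L + 1))) ^ 2) / a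
  | 0, φ => by simpa using one_step hQ1 hG hG1 ha hdom φ
  | L + 1, φ => by
    set h : W → ℝ := fun u => ev (fun v => φ (u * v)) (Q ^ (L + 1)) with hh
    set V : W → ℝ := fun u => ev (fun v => φ (u * v) ^ 2) (Q ^ (L + 1)) with hV
    have first : (ev φ (Q ^ 0 * (G - Q) * Q ^ (L + 1 - 0))) ^ 2
        ≤ (ev (fun z => h z ^ 2) Q - (ev h Q) ^ 2) / a := by
      rw [pow_zero, one_mul, Nat.sub_zero, ev_mul]
      exact one_step hQ1 hG hG1 ha hdom h
    have rest : ∑ i ∈ range (L + 1), (ev φ (Q ^ (i + 1) * (G - Q) * Q ^ (L + 1 - (i + 1)))) ^ 2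
        ≤ (ev V Q - ev (fun z => h z ^ 2) Q) / a := by
      calc _ ≤ ∑ i ∈ range (L + 1),
            ev (fun u => (ev (fun v => φ (u * v)) (Q ^ i * (G - Q) * Q ^ (L - i))) ^ 2) Q := by
            refine sum_le_sum fun i _ => ?_
            rw [Nat.add_sub_add_right, show Q ^ (i + 1) * (G - Q) * Q ^ (L - i)
              = Q * (Q ^ i * (G - Q) * Q ^ (L - i)) by simp only [pow_succ', mul_assoc], ev_mul]
            exact jensen hQ hQ1 _
        _ ≤ ev (fun u => (1 / a) * (V u - h u ^ 2)) Q := by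
            rw [← ev_sum_test]
            refine ev_mono hQ fun u => ?_
            have := ortho hQ hQ1 hG hG1 ha hdom L fun v => φ (u * v)
            rw [one_div_mul_eq_div]
            exact this
        _ = _ := by rw [ev_smul_test, ev_sub_test, one_div_mul_eq_div]
    rw [sum_range_succ']
    refine (add_le_add rest first).trans_eq ?_
    rw [pow_succ' Q (L + 1), ev_mul φ, ev_mul (fun z => φ z ^ 2)]
    ring

theorem ortho_sq (hQ : Pos Q) (hQ1 : mass Q = 1) (hG : Pos G) (hG1 : mass G = 1) (ha : 0 < a)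
    (hdom : Pos (Q - a • G)) (L : ℕ) (φ : W → ℝ) :
    ∑ i ∈ range (L + 1), (ev φ (Q ^ i * (G - Q) * Q ^ (L - i))) ^ 2
      ≤ ev (fun z => φ z ^ 2) (Q ^ (L + 1)) / a := by
  refine (ortho hQ hQ1 hG hG1 ha hdom L φ).trans ?_
  gcongr
  linarith [sq_nonneg (ev φ (Q ^ (L + 1)))]

end Vale.Agent.P321
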