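import Mathlib
import Vale.Agent.P321.Algebra
import Vale.Agent.P321.Binomial
import Vale.Agent.P321.Ortho

/-!
A single flaw moved by one position in an i.i.d. word: the squared distance is `O(n^(-3/2))`.
-/

open scoped BigOperators
open Finset

noncomputable section

namespace Vale.Agent.P321

theorem slot_pow (w : ℝ) (Q : A) : ∀ n M : ℕ, n < M →
    ((1 - w) • (1 : A) + w • Q) ^ n = ∑ i ∈ range M, bp w n i • Q ^ i
  | 0, M + 1, _ => by simp [sum_range_succ', bp]
  | n + 1, M + 1, h => by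
    rw [pow_succ, slot_pow w Q n (M + 1) (by omega), mul_add, sum_mul, sum_mul]
    simp only [smul_mul_smul_comm, mul_one, ← pow_succ]
    rw [sum_range_succ' (n := M) (f := fun i => (bp w n i * (1 - w)) • Q ^ i),
      sum_range_succ (n := M) (f := fun i => (bp w n i * w) • Q ^ (i + 1)),
      bp_eq_zero w n M (by omega), zero_mul, zero_smul, add_zero,
      sum_range_succ' (n := M) (f := fun i => bp w (n + 1) i • Q ^ i), add_right_comm,
      ← sum_add_distrib]
    congr 1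
    · refine sum_congr rfl fun i _ => ?_
      rw [bp, ← add_smul]; ring_nf
    · rw [bp]; ring_nf
  | 0, 0, h => absurd h (lt_irrefl 0)
  | n + 1, 0, h => absurd h (by omega)

/-- The antisymmetric weight of the pair of positions `(i, j)`. -/
def ew (w : ℝ) (N i j : ℕ) : ℝ := bp w N i * bs w N j - bs w N i * bp w N j

/-- The squared weights at total `L`. -/
def esq (w : ℝ) (N L : ℕ) : ℝ := ∑ i ∈ range (L + 1), ew w N i (L - i) ^ 2

theorem esq_nonneg (w : ℝ) (N L : ℕ) : 0 ≤ esq w N L := sum_nonneg fun _ _ => sq_nonneg _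

theorem esq_zero (w : ℝ) (N : ℕ) : esq w N 0 = 0 := by simp [esq, ew, bs]

variable {w : ℝ}

theorem esq_le (h0 : 0 < w) (h1 : w < 1) (N l : ℕ) {R : ℝ} (hR : ∀ i, i ≤ l + 1 →
      bp w (N + 1) i * bp w (N + 1) (l + 1 - i) ≤ R) :
    esq w N (l + 1) * (((N : ℝ) + 1) * (w * (1 - w))) ^ 2
      ≤ R * (2 * (((N : ℝ) + 1) * (w * (1 - w))) * bp w (2 * N) l) := by
  have hb := bp_nonneg w h0.le h1.le (N + 1)
  rw [show 2 * (((N : ℝ) + 1) * (w * (1 - w))) * bp w (2 * N) l
      = 2 * ((N : ℝ) + 1) * (w * (1 - w)) * bp w (2 * N) l by ring,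
    ← bp_diff_sq w N l, esq, sum_mul, mul_sum]
  refine sum_le_sum fun i hi => ?_
  rw [← mul_pow, ew, bp_cross, mul_pow, sq, mul_assoc (bp w (N + 1) i * bp w (N + 1) (l + 1 - i))]
  refine mul_le_mul_of_nonneg_right (hR i (by simp at hi; omega)) ?_
  exact mul_nonneg (mul_nonneg (hb _) (hb _)) (sq_nonneg _)

theorem esq_tail (h0 : 0 < w) (h1 : w < 1) (N l : ℕ) :
    esq w N (l + 1)
      ≤ bp w (2 * N + 2) (l + 1) * (2 / (((N : ℝ) + 1) * (w * (1 - w))) * bp w (2 * N) l) := by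
  have hc : 0 < ((N : ℝ) + 1) * (w * (1 - w)) := by
    have : 0 < 1 - w := by linarith
    positivity
  have hb := bp_nonneg w h0.le h1.le (N + 1)
  have h := esq_le h0 h1 N l (R := bp w (2 * N + 2) (l + 1)) fun i hi => by
    have hconv := bp_conv w (N + 1) (N + 1) (l + 1)
    rw [show N + 1 + (N + 1) = 2 * N + 2 by ring] at hconv
    rw [← hconv]
    exact single_le_sum (f := fun i => bp w (N + 1) i * bp w (N + 1) (l + 1 - i))
      (fun j _ => mul_nonneg (hb _) (hb _)) (mem_range.2 (by omega))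
  rw [← le_div_iff₀ (by positivity)] at h
  refine h.trans_eq ?_
  field_simp

theorem esq_mid (h0 : 0 < w) (h1 : w < 1) (N l : ℕ)
    (hbig : 2 ≤ ((N : ℝ) + 1) * (1 - w))
    (hmid : ((l + 1 : ℕ) : ℝ) ≤ ((N : ℝ) + 1) * (2 * w + (1 - w))) :
    esq w N (l + 1)
      ≤ 4 * Real.sqrt (2 / (((N : ℝ) + 1) * (w * (1 - w))))
          / (((N : ℝ) + 1) * (w * (1 - w)) * w ^ 2)
        * ((bp w (2 * N + 4) (l + 2) + bp w (2 * N + 2) (l + 1)) * bp w (2 * N + 1) (l + 2)) := by
  have hw1 : 0 < 1 - w := by linarith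
  set c : ℝ := ((N : ℝ) + 1) * (w * (1 - w)) with hc
  have hcpos : 0 < c := by positivity
  have hb := bp_nonneg w h0.le h1.le
  set u := bp w (2 * N + 4) (l + 2) with hu
  set v := bp w (2 * N + 2) (l + 1) with hv
  set R : ℝ := Real.sqrt (2 / c) * ((u + v) / 2) with hR
  have hmax : ∀ i, i ≤ l + 1 → bp w (N + 1) i * bp w (N + 1) (l + 1 - i) ≤ R := by
    intro i hi
    refine (bp_mul_bp_le w h0 h1 (N + 1) (l + 1) i hi).trans ?_
    rw [show 2 * (N + 1) + 2 = 2 * N + 4 by ring, show 2 * (N + 1) = 2 * N + 2 by ring,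
      show l + 1 + 1 = l + 2 by ring, hR]
    have hu0 : 0 ≤ u := hb _ _
    have hv0 : 0 ≤ v := hb _ _
    have hsqrt : Real.sqrt (u * v) ≤ (u + v) / 2 := by
      rw [Real.sqrt_le_left (by linarith)]
      nlinarith [sq_nonneg (u - v)]
    refine le_trans ?_ (mul_le_mul_of_nonneg_left hsqrt (Real.sqrt_nonneg _))
    rw [← Real.sqrt_mul (by positivity)]
    refine Real.sqrt_le_sqrt ?_
    rw [show 2 / c * (u * v) = 2 * u * v / c by ring]
    refine div_le_div_of_nonneg_left (by positivity) hcpos ?_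
    rw [hc]; push_cast; nlinarith [mul_pos h0 hw1]
  have h := esq_le h0 h1 N l hmax
  rw [← le_div_iff₀ (by positivity)] at h
  have hl0 : 0 ≤ bp w (2 * N) l := hb _ _
  have hstep : w / 4 * bp w (2 * N) l ≤ bp w (2 * N) (l + 1) := by
    have hr := bp_ratio w (2 * N) l
    push_cast at hr hmid
    have hlow : ((N : ℝ) + 1) * (1 - w) / 2 ≤ 2 * (N : ℝ) - l := by nlinarith
    have hup : (l : ℝ) + 1 ≤ 2 * ((N : ℝ) + 1) := by nlinarith
    have h1' : w * (((N : ℝ) + 1) * (1 - w) / 2) * bp w (2 * N) l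
        ≤ w * (2 * (N : ℝ) - l) * bp w (2 * N) l :=
      mul_le_mul_of_nonneg_right (mul_le_mul_of_nonneg_left hlow h0.le) hl0
    have h2' : (1 - w) * ((l : ℝ) + 1) * bp w (2 * N) (l + 1)
        ≤ (1 - w) * (2 * ((N : ℝ) + 1)) * bp w (2 * N) (l + 1) :=
      mul_le_mul_of_nonneg_right (mul_le_mul_of_nonneg_left hup hw1.le) (hb _ _)
    rw [← mul_le_mul_iff_right₀ (show 0 < 2 * ((N : ℝ) + 1) * (1 - w) by positivity)]
    nlinarith
  have hnext : w ^ 2 / 4 * bp w (2 * N) l ≤ bp w (2 * N + 1) (l + 2) := by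
    rw [bp]
    nlinarith [mul_le_mul_of_nonneg_left hstep h0.le, mul_nonneg hw1.le (hb (2 * N) (l + 2))]
  refine h.trans ?_
  have hR0 : 0 ≤ R := le_trans (mul_nonneg (hb _ _) (hb _ _)) (hmax 0 (by omega))
  have hl : bp w (2 * N) l ≤ 4 / w ^ 2 * bp w (2 * N + 1) (l + 2) := by
    rw [div_mul_eq_mul_div, le_div_iff₀ (by positivity)]
    linarith
  calc R * (2 * c * bp w (2 * N) l) / c ^ 2
      ≤ R * (2 * c * (4 / w ^ 2 * bp w (2 * N + 1) (l + 2))) / c ^ 2 := by gcongr
    _ = _ := by rw [hR]; field_simp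

theorem tail_mass (h0 : 0 < w) (h1 : w < 1) (N : ℕ) (s : Finset ℕ)
    (hs : ∀ L ∈ s, ((N : ℝ) + 1) * (2 * w + (1 - w)) < L) :
    ∑ L ∈ s, bp w (2 * N + 2) L ≤ 14 / (((N : ℝ) + 1) ^ 2 * (1 - w) ^ 4) := by
  have hw1 : 0 < 1 - w := by linarith
  set S : ℝ := (N : ℝ) + 1 with hS
  have hS1 : 1 ≤ S := by rw [hS]; linarith [Nat.cast_nonneg (α := ℝ) N]
  obtain ⟨M, hM, hsub⟩ : ∃ M, 2 * N + 2 < M ∧ s ⊆ range M := by
    refine ⟨2 * N + 3 + s.sup id + 1, by omega, fun L hL => ?_⟩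
    have : L ≤ s.sup id := le_sup (f := id) hL
    simp only [mem_range]; omega
  have hm4 := (bp_moments w (2 * N + 2) M hM).2.2.2
  have hb := bp_nonneg w h0.le h1.le (2 * N + 2)
  have hmark : (∑ L ∈ s, bp w (2 * N + 2) L) * (S * (1 - w)) ^ 4
      ≤ ∑ L ∈ range M, bp w (2 * N + 2) L * ((L : ℝ) - (2 * N + 2 : ℕ) * w) ^ 4 := by
    rw [sum_mul]
    refine (sum_le_sum fun L hL => ?_).trans
      (sum_le_sum_of_subset_of_nonneg hsub fun L _ _ => mul_nonneg (hb L) (by positivity))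
    refine mul_le_mul_of_nonneg_left (pow_le_pow_left₀ (by positivity) ?_ 4) (hb L)
    have := hs L hL
    push_cast
    nlinarith
  rw [hm4] at hmark
  rw [le_div_iff₀ (by positivity)]
  have hwp : w * (1 - w) ≤ 1 := by nlinarith
  have hwp0 : 0 ≤ w * (1 - w) := by positivity
  have hub : (((2 * N + 2 : ℕ) : ℝ)) * (w * (1 - w))
      * (1 + 3 * (((2 * N + 2 : ℕ) : ℝ) - 2) * (w * (1 - w))) ≤ 14 * S ^ 2 := by
    push_cast
    rw [show (2 : ℝ) * N + 2 = 2 * S by rw [hS]; ring]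
    have hin : 1 + 3 * (2 * S - 2) * (w * (1 - w)) ≤ 7 * S := by
      nlinarith [mul_le_mul_of_nonneg_left hwp (show 0 ≤ 3 * (2 * S - 2) by linarith)]
    calc 2 * S * (w * (1 - w)) * (1 + 3 * (2 * S - 2) * (w * (1 - w)))
        ≤ 2 * S * 1 * (7 * S) :=
          mul_le_mul (by gcongr) hin
            (by nlinarith [mul_nonneg (show 0 ≤ 3 * (2 * S - 2) by linarith) hwp0]) (by positivity)
      _ = 14 * S ^ 2 := by ring
  refine le_of_mul_le_mul_right ?_ (show 0 < S ^ 2 by positivity)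
  calc (∑ L ∈ s, bp w (2 * N + 2) L) * (S ^ 2 * (1 - w) ^ 4) * S ^ 2
      = (∑ L ∈ s, bp w (2 * N + 2) L) * (S * (1 - w)) ^ 4 := by ring
    _ ≤ 14 * S ^ 2 := hmark.trans hub

/-- The dipole bound, in the form of a bound on test functions. -/
theorem dipole_bound {a : ℝ} (h0 : 0 < w) (h1 : w < 1) (ha : 0 < a) {Q G : A} (hQ : Pos Q)
    (hQ1 : mass Q = 1) (hG : Pos G) (hG1 : mass G = 1) (hdom : Pos (Q - a • G)) (N : ℕ)
    (hbig : 2 ≤ ((N : ℝ) + 1) * (1 - w)) (φ : W → ℝ) (hφ : ∀ z, |φ z| ≤ 1) :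
    let B : A := (1 - w) • (1 : A) + w • Q
    let F : A := (1 - w) • (1 : A) + w • G
    ev φ (B ^ N * F * B ^ (N + 1) - B ^ (N + 1) * F * B ^ N)
      ≤ Real.sqrt (8 * Real.sqrt (2 / (((N : ℝ) + 1) * (w * (1 - w))))
            / (((N : ℝ) + 1) * (w * (1 - w)) * w ^ 2) / (a * (1 - w)))
          * Real.sqrt (ev (fun z => φ z ^ 2) (B ^ N * F * B ^ (N + 1) + B ^ (N + 1) * F * B ^ N))
        + Real.sqrt (14 / (((N : ℝ) + 1) ^ 2 * (1 - w) ^ 4))
          * Real.sqrt (2 / (((N : ℝ) + 1) * (w * (1 - w))) / a) := by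
  intro B F
  have hw1 : 0 < 1 - w := by linarith
  set c : ℝ := ((N : ℝ) + 1) * (w * (1 - w)) with hc
  have hcpos : 0 < c := by positivity
  set D : A := G - Q with hD
  set K : ℕ := 2 * N + 4 with hK
  set g : ℕ → ℕ → ℝ := fun i j => ev φ (Q ^ i * D * Q ^ j) with hg
  have hBN : B ^ N = ∑ i ∈ range K, bp w N i • Q ^ i := slot_pow w Q N K (by omega)
  have hBN1 : B ^ (N + 1) = ∑ i ∈ range K, bp w (N + 1) i • Q ^ i :=
    slot_pow w Q (N + 1) K (by omega)
  have hF : F = B + w • D := by simp only [F, B, hD, smul_sub]; abel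
  have hprod : ∀ (f f' : ℕ → ℝ),
      ev φ ((∑ i ∈ range K, f i • Q ^ i) * D * ∑ j ∈ range K, f' j • Q ^ j)
        = ∑ i ∈ range K, ∑ j ∈ range K, f i * f' j * g i j := by
    intro f f'
    rw [sum_mul, sum_mul, map_sum]
    refine sum_congr rfl fun i _ => ?_
    rw [mul_sum, map_sum]
    refine sum_congr rfl fun j _ => ?_
    rw [smul_mul_assoc, smul_mul_smul_comm, map_smul, smul_eq_mul]
  have hev : ev φ (B ^ N * F * B ^ (N + 1) - B ^ (N + 1) * F * B ^ N)
      = w * (w * ∑ L ∈ range K, ∑ i ∈ range (L + 1), ew w N i (L - i) * g i (L - i)) := by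
    have e : B ^ N * F * B ^ (N + 1) - B ^ (N + 1) * F * B ^ N
        = w • (B ^ N * D * B ^ (N + 1) - B ^ (N + 1) * D * B ^ N) := by
      rw [hF]
      simp only [mul_add, add_mul, ← pow_succ, ← pow_add, mul_smul_comm, smul_mul_assoc,
        smul_sub]
      rw [show N + 1 + (N + 1) = N + 1 + 1 + N by ring]
      abel
    rw [e, map_smul, map_sub, smul_eq_mul, hBN, hBN1, hprod, hprod, ← sum_sub_distrib]
    congr 1
    rw [sum_range_diag_flip K fun i j => ew w N i j * g i j, mul_sum]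
    refine sum_congr rfl fun i _ => ?_
    rw [← sum_sub_distrib, mul_sum]
    symm
    refine (sum_subset (s₂ := range K) (fun j hj => by simp at hj ⊢; omega) fun j hj hj' => ?_).trans
      (sum_congr rfl fun j _ => ?_)
    · simp only [mem_range, not_lt] at hj hj'
      have : N + 1 < i ∨ N + 1 < j := by omega
      rcases this with h | h
      · obtain ⟨r, rfl⟩ : ∃ r, i = r + 1 := ⟨i - 1, by omega⟩
        simp [ew, bs, bp_eq_zero w N (r + 1) (by omega), bp_eq_zero w N r (by omega)]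
      · obtain ⟨r, rfl⟩ : ∃ r, j = r + 1 := ⟨j - 1, by omega⟩
        simp [ew, bs, bp_eq_zero w N (r + 1) (by omega), bp_eq_zero w N r (by omega)]
    · rw [bp_succ w N i, bp_succ w N j, ew]; ring
  set V : ℕ → ℝ := fun L => ev (fun z => φ z ^ 2) (Q ^ (L + 1)) with hV
  have hVle : ∀ L, V L ≤ 1 := fun L => by
    refine (ev_mono (hQ.pow _) (ψ := fun _ => (1 : ℝ)) fun z => ?_).trans_eq ?_
    · rw [← sq_abs]; exact pow_le_one₀ (abs_nonneg _) (hφ z)
    · rw [ev_const, mass_pow, hQ1]; simp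
  have hinner : ∀ L, ∑ i ∈ range (L + 1), ew w N i (L - i) * g i (L - i)
      ≤ Real.sqrt (esq w N L) * Real.sqrt (V L / a) := by
    intro L
    refine (Real.sum_mul_le_sqrt_mul_sqrt _ _ _).trans ?_
    refine mul_le_mul_of_nonneg_left (Real.sqrt_le_sqrt ?_) (Real.sqrt_nonneg _)
    exact ortho_sq hQ hQ1 hG hG1 ha hdom L φ
  have hb := bp_nonneg w h0.le h1.le
  set mid : Finset ℕ := (range K).filter fun L => (L : ℝ) ≤ ((N : ℝ) + 1) * (2 * w + (1 - w))
    with hmid
  set tail : Finset ℕ :=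
    (range K).filter fun L => ¬((L : ℝ) ≤ ((N : ℝ) + 1) * (2 * w + (1 - w))) with htail
  set Km : ℝ := 4 * Real.sqrt (2 / c) / (c * w ^ 2) with hKm
  have hKm0 : 0 ≤ Km := by positivity
  set u : ℕ → ℝ := fun L => bp w (2 * N + 4) (L + 1) + bp w (2 * N + 2) L with hu
  set P : ℕ → ℝ := fun L => bp w (2 * N + 1) (L + 1) with hP
  have hu0 : ∀ L, 0 ≤ u L := fun L => add_nonneg (hb _ _) (hb _ _)
  have hsumu : ∑ L ∈ mid, u L ≤ 2 := by
    rw [hu, sum_add_distrib]
    have e1 : ∑ L ∈ mid, bp w (2 * N + 4) (L + 1)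
        = ∑ L ∈ mid.map ⟨(· + 1), add_left_injective 1⟩, bp w (2 * N + 4) L := by simp
    have := sum_bp_le_one w h0.le h1.le (2 * N + 4) (mid.map ⟨(· + 1), add_left_injective 1⟩)
    have := sum_bp_le_one w h0.le h1.le (2 * N + 2) mid
    rw [e1]; linarith
  set χ : ℝ := ev (fun z => φ z ^ 2) (B ^ N * F * B ^ (N + 1) + B ^ (N + 1) * F * B ^ N) with hχ
  have hB : Pos B := (Pos.one.smul hw1.le).add (hQ.smul h0.le)
  have hFpos : Pos F := (Pos.one.smul hw1.le).add (hG.smul h0.le)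
  have hsumPV : ∑ L ∈ mid, P L * (V L / a) ≤ χ / (a * (1 - w)) := by
    have hsq : ∀ z, 0 ≤ φ z ^ 2 := fun z => sq_nonneg _
    have h2 : ev (fun z => φ z ^ 2) (B ^ (2 * N + 1))
        = ∑ i ∈ range (K + 1), bp w (2 * N + 1) i * ev (fun z => φ z ^ 2) (Q ^ i) := by
      rw [slot_pow w Q (2 * N + 1) (K + 1) (by omega), map_sum]
      simp
    have h3 : ∑ L ∈ mid, P L * V L ≤ ev (fun z => φ z ^ 2) (B ^ (2 * N + 1)) := by
      have hmap : ∑ L ∈ mid, P L * V L = ∑ i ∈ mid.map ⟨(· + 1), add_left_injective 1⟩,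
          bp w (2 * N + 1) i * ev (fun z => φ z ^ 2) (Q ^ i) := by simp [hP, hV]
      rw [h2, hmap]
      refine sum_le_sum_of_subset_of_nonneg (fun i hi => ?_) fun i _ _ =>
        mul_nonneg (hb _ _) (ev_nonneg (hQ.pow _) hsq)
      simp [hmid] at hi ⊢
      omega
    have h4 : (1 - w) * ev (fun z => φ z ^ 2) (B ^ (2 * N + 1)) ≤ χ := by
      rw [hχ, map_add]
      refine le_trans ?_ (le_add_of_nonneg_right (ev_nonneg (((hB.pow _).mul hFpos).mul (hB.pow _))
        hsq))
      rw [← smul_eq_mul, ← map_smul]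
      refine ev_le_of_sub_pos ?_ hsq
      have : B ^ N * F * B ^ (N + 1) - (1 - w) • B ^ (2 * N + 1)
          = B ^ N * (w • G) * B ^ (N + 1) := by
        simp only [F, mul_add, add_mul, mul_smul_comm, smul_mul_assoc, mul_one, ← pow_add]
        rw [show N + (N + 1) = 2 * N + 1 by ring]
        abel
      rw [this]
      exact ((hB.pow _).mul (hG.smul h0.le)).mul (hB.pow _)
    simp only [← mul_div_assoc, ← sum_div]
    rw [div_le_div_iff₀ ha (by positivity)]
    calc (∑ L ∈ mid, P L * V L) * (a * (1 - w))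
        ≤ ev (fun z => φ z ^ 2) (B ^ (2 * N + 1)) * (a * (1 - w)) :=
          mul_le_mul_of_nonneg_right h3 (by positivity)
      _ ≤ χ * a := by nlinarith
  have hV0 : ∀ L, 0 ≤ V L := fun L => ev_nonneg (hQ.pow _) fun _ => sq_nonneg _
  have hmidsum : ∑ L ∈ mid, ∑ i ∈ range (L + 1), ew w N i (L - i) * g i (L - i)
      ≤ Real.sqrt (8 * Real.sqrt (2 / c) / (c * w ^ 2) / (a * (1 - w))) * Real.sqrt χ := by
    calc _ ≤ ∑ L ∈ mid, Real.sqrt (Km * u L) * Real.sqrt (P L * (V L / a)) := by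
          refine sum_le_sum fun L hL => (hinner L).trans ?_
          rw [← Real.sqrt_mul (esq_nonneg w N L),
            ← Real.sqrt_mul (mul_nonneg hKm0 (hu0 L))]
          refine Real.sqrt_le_sqrt ?_
          rw [← mul_assoc]
          refine mul_le_mul_of_nonneg_right ?_ (div_nonneg (hV0 L) ha.le)
          rcases L with _ | l
          · rw [esq_zero]; exact mul_nonneg (mul_nonneg hKm0 (hu0 0)) (hb _ _)
          · have := esq_mid h0 h1 N l hbig (by simp [hmid] at hL; push_cast; exact hL.2)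
            rw [mul_assoc]
            exact this
      _ ≤ Real.sqrt (∑ L ∈ mid, Km * u L) * Real.sqrt (∑ L ∈ mid, P L * (V L / a)) :=
          Real.sum_sqrt_mul_sqrt_le _ (fun L => mul_nonneg hKm0 (hu0 L))
            fun L => mul_nonneg (hb _ _) (div_nonneg (hV0 L) ha.le)
      _ ≤ Real.sqrt (Km * 2) * Real.sqrt (χ / (a * (1 - w))) := by
          rw [← mul_sum]
          gcongr
      _ = _ := by
          have hχ0 : 0 ≤ χ := ev_nonneg ((((hB.pow _).mul hFpos).mul (hB.pow _)).add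
            (((hB.pow _).mul hFpos).mul (hB.pow _))) fun _ => sq_nonneg _
          rw [← Real.sqrt_mul (by positivity), ← Real.sqrt_mul (by positivity), hKm]
          congr 1
          ring
  have htailsum : ∑ L ∈ tail, ∑ i ∈ range (L + 1), ew w N i (L - i) * g i (L - i)
      ≤ Real.sqrt (14 / (((N : ℝ) + 1) ^ 2 * (1 - w) ^ 4)) * Real.sqrt (2 / c / a) := by
    calc _ ≤ ∑ L ∈ tail, Real.sqrt (bp w (2 * N + 2) L)
          * Real.sqrt (2 / c / a * bs w (2 * N) L) := by
          refine sum_le_sum fun L _ => (hinner L).trans ?_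
          rcases L with _ | l
          · rw [esq_zero, Real.sqrt_zero, zero_mul]; positivity
          · rw [← Real.sqrt_mul (esq_nonneg _ _ _), ← Real.sqrt_mul (hb _ _)]
            refine Real.sqrt_le_sqrt ?_
            calc esq w N (l + 1) * (V (l + 1) / a)
                ≤ bp w (2 * N + 2) (l + 1) * (2 / c * bp w (2 * N) l) * (1 / a) := by
                  refine mul_le_mul (esq_tail h0 h1 N l) ?_ (div_nonneg (hV0 _) ha.le)
                    (mul_nonneg (hb _ _) (mul_nonneg (by positivity) (hb _ _)))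
                  gcongr
                  exact hVle _
              _ = _ := by simp only [bs]; ring
      _ ≤ Real.sqrt (∑ L ∈ tail, bp w (2 * N + 2) L)
          * Real.sqrt (∑ L ∈ tail, 2 / c / a * bs w (2 * N) L) :=
          Real.sum_sqrt_mul_sqrt_le _ (fun L => hb _ _) fun L => by
            rcases L with _ | l
            · simp [bs]
            · exact mul_nonneg (by positivity) (hb _ _)
      _ ≤ _ := by
          gcongr
          · exact tail_mass h0 h1 N tail fun L hL => by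
              simp [htail] at hL; exact hL.2
          · rw [← mul_sum]
            refine mul_le_of_le_one_right (by positivity) ?_
            have hsub : tail ⊆ range (K + 1) := fun L hL => by simp [htail] at hL ⊢; omega
            refine (sum_le_sum_of_subset_of_nonneg hsub fun L _ _ => ?_).trans ?_
            · rcases L with _ | l
              · simp [bs]
              · exact hb _ _
            · rw [sum_range_succ']
              simp only [bs, add_zero]
              exact sum_bp_le_one w h0.le h1.le _ _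
  rw [hev, ← sum_filter_add_sum_filter_not (range K)
    (fun L : ℕ => (L : ℝ) ≤ ((N : ℝ) + 1) * (2 * w + (1 - w)))]
  have hw2 : w * w ≤ 1 := by nlinarith
  have hnn : 0 ≤ Real.sqrt (8 * Real.sqrt (2 / c) / (c * w ^ 2) / (a * (1 - w))) * Real.sqrt χ
      + Real.sqrt (14 / (((N : ℝ) + 1) ^ 2 * (1 - w) ^ 4)) * Real.sqrt (2 / c / a) := by positivity
  calc w * (w * _) = w * w * _ := (mul_assoc _ _ _).symm
    _ ≤ w * w * (Real.sqrt (8 * Real.sqrt (2 / c) / (c * w ^ 2) / (a * (1 - w))) * Real.sqrt χ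
          + Real.sqrt (14 / (((N : ℝ) + 1) ^ 2 * (1 - w) ^ 4)) * Real.sqrt (2 / c / a)) :=
        mul_le_mul_of_nonneg_left (add_le_add hmidsum htailsum) (by positivity)
    _ ≤ _ := mul_le_of_le_one_left hnn hw2

end Vale.Agent.P321
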